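import Vale.Agent.P287D.Mm.St
import Vale.Agent.P287D.Gs.Ful
import Vale.Agent.P287D.Va.Dsc

/-!
# P287D: Mori fibre spaces from the end of the program
-/

open Set

noncomputable section

namespace Vale.Agent.P287D.Mm

variable {K : Type} [Field K] [Algebra ℂ K] {n : ℕ} {Ω κ w A₀ Λ β : BD K}

/-- finitely many divisors of `V Ω` lie in a rational space -/
theorem exists_sp (hΩ : Smp Ω) (hb : Big Ω) {S : Set (BD K)} (hS : S.Finite)
    (h : ∀ β ∈ S, Dsc Ω β) : ∃ U, Sp Ω U ∧ S ⊆ U := by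
  classical
  choose! l hl hl' using fun β (hβ : β ∈ S) => Gs.dsc_span hΩ (h β hβ)
  refine ⟨_, ⟨hΩ, hb, hS.toFinset.biUnion fun β => (l β).support.image mx, fun γ hγ => ?_, rfl⟩,
    fun β hβ => ?_⟩
  · simp only [Finset.mem_biUnion, Finite.mem_toFinset, Finset.mem_image,
      Finsupp.mem_support_iff] at hγ
    obtain ⟨β, a, s, b, rfl⟩ := hγ
    exact ⟨carQ_mx s, hl' β a s b⟩
  · rw [SetLike.mem_coe, hl β hβ, cmb_sum]
    refine Submodule.sum_mem _ fun s hs => Submodule.smul_mem _ _ (Submodule.subset_span ?_)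
    simp only [Finset.coe_biUnion, Finite.coe_toFinset, Finset.coe_image, mem_iUnion]
    exact ⟨β, hβ, s, hs, rfl⟩

theorem term_le (h : Term n Ω κ) : κ ≤ cn K (n + 1) := fun P => by
  by_cases c : On n Ω P
  · exact (h.hull.2 P c).le
  · exact (sub_pos.1 (h.pos P c)).le

theorem term_pre (h : Term n Ω κ) : Pre n Ω κ := fun A hA =>
  ⟨κ, h.hull.1, fun P => lt_of_lt_of_le neg_one_lt_zero (sub_nonneg.2 (term_le h P)),
    fun P c => (sub_eq_zero.2 (h.hull.2 P c).symm).le, by simpa using hA⟩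

theorem not_psef (h : ¬ Psef β) (hΩ : Smp Ω) (hb : Big Ω) :
    ∃ ε : ℝ, 0 < ε ∧ ∀ η, η ≤ ε → ¬ Psef (β + η • Ω) := by
  rw [psef_iff hb hΩ.car] at h
  push Not at h
  obtain ⟨ε, e, k⟩ := h
  refine ⟨ε / 2, half_pos e, fun η q c => k ?_⟩
  refine (c.add_big (hb.smul (c := ε - η) (by linarith))).eff.mono (le_of_eq (by module))

/-- the output of the program -/
structure Out (n : ℕ) (Ω κ x : BD K) (s : Finset K) (S : Set (BD K)) (L B : BD K)
    (Φ : BD K →ₗ[ℝ] BD K) : Prop where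
  mf : Mf n L (Φ κ) B
  base : Dsc B (mx s)
  on : ∀ P, On n L P → On n Ω P ∧ ∃ G, Rep x G ∧ G P = 0
  le : Φ κ ≤ κ
  fix : Φ (mx s) = mx s
  cls : ∀ β ∈ S, Rk1 n L (Φ κ) B β (Φ β) ∧ (Nef β → β ≤ Φ β) ∧ (CarQ β → CarQ (Φ β))

theorem exists_out (he : END) (hK : FF K (n + 1)) {s : Finset K} {m : ℝ} {S : Set (BD K)}
    (ht : Term n Ω κ) (hs : Dsc Ω (mx s)) (hw : Dsc Ω w) (w1 : Smp w) (w2 : Big w)
    (hA : AmpOn Ω A₀) (hm : (n + 2 : ℝ) ≤ m) (hp : ¬ Psef (κ + (2 : ℝ) • A₀ + m • mx s))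
    (hS : S.Finite) (h : ∀ β ∈ S, Dsc Ω β) :
    ∃ (A : BD K) (τ : ℝ) (L B : BD K) (Φ : BD K →ₗ[ℝ] BD K), Smp ((2 : ℝ) • A₀ - A) ∧
      Out n Ω κ (κ + A + τ • w + m • mx s) s S L B Φ := by
  obtain ⟨U, hU, sub⟩ := exists_sp ht.smp ht.big
    ((((hS.insert κ).insert w).insert A₀).insert (mx s)) (by
      rintro β (rfl | rfl | rfl | rfl | b)
      exacts [hs, hA.1, hw, ht.hull.1, h β b])
  have uκ : κ ∈ U := sub (by simp)
  have uw : w ∈ U := sub (by simp)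
  have us : mx s ∈ U := sub (by simp)
  obtain ⟨A, uA, a1, a2, τ, δ, x, Φ, t0, d0, hx, c, wl, nb, bs⟩ :=
    he n K hK Ω κ w A₀ U s m hU uκ uw (sub (by simp)) us hA (term_pre ht) w1 w2 hm hp
  have m0 : 0 ≤ m := le_trans (by positivity) hm
  obtain ⟨H, hH⟩ : ∃ H, H = (1 + δ) • (A + τ • w + m • mx s) := ⟨_, rfl⟩
  have uH : H ∈ U := hH ▸ U.smul_mem _ (add_mem (add_mem uA (U.smul_mem _ uw)) (U.smul_mem _ us))
  have nH : Nef H := hH ▸
    (((a1.smp.add (w1.smul t0.le)).add ((smp_mx s).smul m0)).smul (by positivity)).nef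
  have ux : x ∈ U := hx ▸ add_mem (add_mem (add_mem uκ uA) (U.smul_mem _ uw)) (U.smul_mem _ us)
  have eD : x + δ • (x - κ) = κ + H := by rw [hH, hx]; module
  have le : ∀ P, Φ κ P - κ P ≤ Φ (x + δ • (x - κ)) P - (x + δ • (x - κ)) P := fun P => by
    have := c.nef H uH nH P
    rw [eD, map_add, Pi.add_apply, Pi.add_apply]
    linarith
  have le' : Φ κ ≤ κ := fun P => by have := le P; have := c.le P; linarith
  have hull : ∀ β ∈ U, Hull n (Φ (x + δ • (x - κ))) β (Φ β) := fun β b =>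
    ⟨c.des β b, fun P hP => c.tr β b P ((c.on P).1 hP).2⟩
  have sB : Smp (Φ x) := by simpa using wl.zd.smp
  refine ⟨A, τ, Φ (x + δ • (x - κ)), Φ x, Φ, a2.smp, hx ▸ ⟨⟨⟨c.smp, c.big, ⟨c.des κ uκ, fun P hP => ?_⟩,
    fun P hP => ?_⟩, sB, c.des x ux, nb, δ⁻¹ + 1, ?_⟩, bs, fun P hP => ⟨((c.on P).1 hP).1, ?_⟩, le',
    c.fix _ us ((c.des x ux).trans bs), fun β b => ?_⟩⟩
  · rw [(hull κ uκ).2 P hP, ht.hull.2 P ((c.on P).1 hP).1]
  · have a := term_le ht P
    change 0 < cn K (n + 1) P - Φ κ P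
    by_cases o : On n Ω P
    · have b := lt_of_le_of_ne (c.le P) fun e => hP ((c.on P).2 ⟨o, e⟩)
      have := le P
      linarith
    · have b : 0 < cn K (n + 1) P - κ P := ht.pos P o
      have := le' P
      linarith
  · have e : (δ⁻¹ + 1) • Φ x - Φ κ = δ⁻¹ • Φ (x + δ • (x - κ)) := by
      rw [map_add, map_smul, map_sub, smul_add, smul_smul, inv_mul_cancel₀ d0.ne']
      module
    rw [e]
    exact c.smp.ampOn_smul (inv_pos.2 d0)
  · obtain ⟨G, r, z⟩ := sB.exists_rep (finite_singleton P)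
    refine ⟨G + (x - Φ x), by simpa using r.add (.refl wl.zd.nn), ?_⟩
    simp [z P rfl, (hull x ux).2 P hP]
  · have u : β ∈ U := sub (by simp [b])
    exact ⟨⟨hull β u, wl.rk β u⟩, c.nef β u, c.rat β u⟩

theorem mft_of (he : END) : MFT := fun n K _ _ hK Ω κ s m S ht hs hm hp hS h => by
  obtain ⟨ε, e, k⟩ := not_psef hp ht.smp ht.big
  obtain ⟨A, τ, L, B, Φ, -, o⟩ := exists_out he hK ht hs (.refl ht.smp) ht.smp ht.big
    (ht.smp.ampOn_smul (half_pos e)) hm (fun c => k ε le_rfl (c.mono (le_of_eq (by module)))) hS h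
  exact ⟨L, _, B, o.mf, o.base, fun P c => (o.on P c).1, o.le, fun β b => ⟨_, o.cls β b⟩⟩

theorem mfs_of (hM : MOD) (hN : NEG) (he : END) : MFS :=
    fun n K _ _ hK Λ Γ s c S hΛ hb hΓ hd hs nb w1 w2 hS => by
  obtain ⟨t, κ, ht, kz, -, des, -, hh⟩ := hM.ex n K hK ∅ {Λ} finite_empty (finite_singleton _)
    (by simpa using hΛ.car)
  have dΛ : Dsc (mx t) Λ := des Λ rfl
  have fin : {P | On n (mx t) P ∧ dsc (n + 1) Γ P ≠ 0}.Finite :=
    ((( hM.isb n K hK).2.1 t ht.big).union ((hM.isb n K hK).1 Γ hΓ.car t ht.big)).subset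
      fun P hP => by
        by_contra q
        simp only [mem_union, mem_ofPred_eq, hP.1, true_and, not_or, not_not] at q
        exact hP.2 (by simp [dsc, q.1, q.2])
  choose! h hz hl using hh
  have key : ∀ X G : BD K, Dsc Λ X → Rep (X + (κ - Γ)) G → Rep X (G - (κ - Γ)) := fun X G a r => by
    have p : G - (κ - Γ) - X ∈ Prn K := by simpa only [sub_sub, add_comm] using r.2
    refine ⟨Gs.det hN hK hΛ hb (a.congr p) fun P hP => ?_, p⟩
    have a1 : cn K (n + 1) P - Γ P ≤ 0 := hd P hP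
    have a2 := term_le ht P
    have a3 : 0 ≤ G P := r.1 P
    simp only [Pi.sub_apply]
    linarith
  obtain ⟨m, hm, mc⟩ : ∃ m : ℝ, (n + 2 : ℝ) ≤ m ∧ 0 < m + c :=
    ⟨n + 2 + |c|, by simp, by have := neg_abs_le c; have : (0 : ℝ) < n + 2 := by positivity
                              linarith⟩
  have np : ¬ Psef (κ + m • mx s) := fun q => by
    obtain ⟨ε, e, G, r⟩ := (q.add_big w2).exists_eff hΛ.car
    have := key ((m + c) • mx s - ε • Λ) G ((hs.smul _).sub ((Dsc.refl hΛ).smul _))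
      (r.congr (by rw [show _ - _ = (0 : BD K) by module]; exact zero_mem _))
    exact nb (.of_smul mc ((hb.smul e).of_sub this.eff.psef))
  obtain ⟨ε, e, k⟩ := not_psef np ht.smp ht.big
  obtain ⟨a, a0, F, hF⟩ := hb.exists_eff ht.smp.car
  obtain ⟨η, η0, η1, η2⟩ : ∃ η : ℝ, 0 < η ∧ η * a ≤ ε ∧
      ∀ P, On n (mx t) P → 0 < dsc (n + 1) Γ P → η * F P < dsc (n + 1) Γ P := by
    have ev : ∀ᶠ η : ℝ in nhds 0, η * a < ε ∧ ∀ P ∈ {P | On n (mx t) P ∧ dsc (n + 1) Γ P ≠ 0},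
        0 < dsc (n + 1) Γ P → η * F P < dsc (n + 1) Γ P := by
      refine .and ((by fun_prop : Continuous fun η : ℝ => η * a).continuousAt.eventually_lt
        continuousAt_const (by simpa using e)) ((Filter.eventually_all_finite fin).2 fun P _ => ?_)
      by_cases p : 0 < dsc (n + 1) Γ P
      · exact ((by fun_prop : Continuous fun η : ℝ => η * F P).continuousAt.eventually_lt
          continuousAt_const (by simpa using p)).mono fun _ q _ => q
      · exact .of_forall fun _ q => absurd q p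
    obtain ⟨η, ⟨p, q⟩, r⟩ := ((ev.filter_mono nhdsWithin_le_nhds).and
      (self_mem_nhdsWithin (s := Ioi (0 : ℝ)))).exists
    exact ⟨η, r, p.le, fun P x y => q P ⟨x, y.ne'⟩ y⟩
  have hw : Dsc Λ (c • mx s - Γ) := (hs.smul c).sub hΓ
  obtain ⟨A, τ, L, B, Φ, sA, o⟩ := exists_out he hK ht (dΛ.trans hs) (dΛ.trans hw) w1 w2
    (ht.smp.ampOn_smul (half_pos (mul_pos η0 a0))) hm
    (fun q => k (η * a) η1 (q.mono (le_of_eq (by module))))
    (S := {κ, Γ, c • mx s - Γ} ∪ h '' {P | On n (mx t) P ∧ (P ∈ S ∨ dsc (n + 1) Γ P ≠ 0)})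
    ((toFinite _).union (((hS.union fin).subset fun P hP => hP.2.imp_right fun q => ⟨hP.1, q⟩).image
      _)) (by
      rintro β ((rfl | rfl | rfl) | ⟨P, hP, rfl⟩)
      exacts [ht.hull.1, dΛ.trans hΓ, dΛ.trans hw, (hl P hP.1).1])
  refine ⟨L, _, B, Φ Γ, o.mf, (o.cls κ (by simp)).2.2 (CarZ.carQ kz), o.base, fun P hP => ?_,
    (o.cls Γ (by simp)).1, fun P => ?_, fun P hP q => ?_⟩
  · by_contra q
    obtain ⟨o1, G, r, z⟩ := o.on P hP
    obtain ⟨G', r', z'⟩ := sA.exists_rep (finite_singleton P)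
    have u := (key (τ • (c • mx s - Γ) + m • mx s + η • Λ + Γ) _
      ((((hw.smul _).add (hs.smul _)).add ((Dsc.refl hΛ).smul _)).add hΓ)
      (((r.add r').add (hF.smul η0.le)).congr
        (by rw [show _ - _ = (0 : BD K) by module]; exact zero_mem _))).1 P
    have v := η2 P o1 (not_le.1 q)
    simp only [Pi.sub_apply, Pi.add_apply, Pi.smul_apply, smul_eq_mul, z, z' P rfl, Pi.zero_apply,
      ht.hull.2 P o1, dsc] at u v
    linarith
  · have := (o.cls (c • mx s - Γ) (by simp)).2.1 w1.nef P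
    rw [map_sub, map_smul, o.fix] at this
    simp only [Pi.sub_apply] at this
    linarith
  · have o1 := (o.on P hP).1
    obtain ⟨⟨u, v⟩, -, z⟩ := o.cls (h P) (.inr ⟨P, ⟨o1, q⟩, rfl⟩)
    exact ⟨_, z (CarZ.carQ (hz P o1)), u.congr fun Q hQ => (hl P o1).2 Q (o.on Q hQ).1, v⟩

end Vale.Agent.P287D.Mm
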