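import Vale.Agent.P287D.Mm.Fam

/-!
# P287D: runs of the minimal model program
-/

open Set Filter Topology
open P277Z.Gor

noncomputable section

namespace Vale.Agent.P287D.Mm

variable {K : Type} [Field K] [Algebra ℂ K] {n : ℕ} {Ω A β D D' Γ X : BD K}
  {U : Submodule ℝ (BD K)} {s : Finset K} {m : ℝ}

theorem onto_of {ι : Type} [Fintype ι] {F : ι → BD K}
    (h : ∀ β ∈ U, ∃ ε : ℝ, 0 < ε ∧ ∀ c : ℝ, |c| ≤ ε → ∃ a ∈ Op ι, lc F a = X + c • β) (hβ : β ∈ U) :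
    ∃ a, lc F a = β := by
  obtain ⟨ε, e, k⟩ := h β hβ
  obtain ⟨a, -, a1⟩ := k ε (abs_of_pos e).le
  obtain ⟨b, -, b1⟩ := k 0 (by simpa using e.le)
  exact ⟨ε⁻¹ • (a - b), by
    rw [Ge.lc_smul, Ge.lc_sub, a1, b1, zero_smul, add_zero, add_sub_cancel_left,
      inv_smul_smul₀ e.ne']⟩

theorem lc_elim {ι κ : Type} [Fintype ι] [Fintype κ] (F : ι → BD K) (G : κ → BD K) (a : ι → ℝ)
    (b : κ → ℝ) : lc (Sum.elim F G) (Sum.elim a b) = lc F a + lc G b := by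
  simp [lc]

/-- rational points round a segment -/
theorem Sp.two (h : Sp Ω U) (hD : D ∈ U) (hD' : D' ∈ U) (hA : A ∈ U) (ha : AmpOn Ω A) :
    ∃ (ι : Type) (_ : Fintype ι) (_ : Nonempty ι) (F : ι → BD K),
      (∀ i, CarQ (F i) ∧ F i ∈ U ∧ (AmpOn Ω (F i - D) ∨ AmpOn Ω (F i - D'))) ∧
      (∀ β ∈ U, ∃ a, lc F a = β) ∧ (∃ a ∈ Op ι, lc F a = D + A) ∧ ∃ a ∈ Op ι, lc F a = D' + A := by
  obtain ⟨ι, _, _, F, f1, f2⟩ := h.nb hD hA ha
  obtain ⟨κ, _, _, G, g1, g2⟩ := h.nb hD' hA ha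
  refine ⟨ι ⊕ κ, inferInstance, inferInstance, Sum.elim F G, fun i => ?_, fun β hβ => ?_, ?_, ?_⟩
  · cases i with
    | inl i => exact ⟨(f1 i).1, (f1 i).2.1, .inl (f1 i).2.2⟩
    | inr i => exact ⟨(g1 i).1, (g1 i).2.1, .inr (g1 i).2.2⟩
  · obtain ⟨a, rfl⟩ := onto_of f2 hβ
    exact ⟨Sum.elim a 0, by rw [lc_elim, Ge.lc_zero, add_zero]⟩
  · obtain ⟨ε, e, k⟩ := f2 _ (lc_mem (fun i => (g1 i).2.1) 1)
    obtain ⟨a, a1, a2⟩ := k (-ε) (by rw [abs_neg, abs_of_pos e])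
    refine ⟨Sum.elim a (ε • 1), fun i => ?_, by rw [lc_elim, a2, Ge.lc_smul]; module⟩
    cases i with
    | inl i => exact a1 i
    | inr i => simpa using e
  · obtain ⟨ε, e, k⟩ := g2 _ (lc_mem (fun i => (f1 i).2.1) 1)
    obtain ⟨a, a1, a2⟩ := k (-ε) (by rw [abs_neg, abs_of_pos e])
    refine ⟨Sum.elim (ε • 1) a, fun i => ?_, by rw [lc_elim, a2, Ge.lc_smul]; module⟩
    cases i with
    | inl i => simpa using e
    | inr i => exact a1 i

theorem adw_of (hb : Big Ω) (h : Pre n Ω Γ) (hX : Dsc Ω X) (hs : Dsc Ω (mx s)) (hm : (n + 2 : ℝ) ≤ m)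
    (ha : AmpOn Ω (X - (Γ + m • mx s))) : Adw n Ω (X - (n + 2 : ℝ) • mx s) := by
  obtain ⟨Γ', a, b, c, d⟩ := h _ (ha.add_smp ((smp_mx s).smul (sub_nonneg.2 hm)) (hs.smul _))
  have e : Γ + (X - (Γ + m • mx s) + (m - (n + 2)) • mx s) - Γ' =
    X - (n + 2 : ℝ) • mx s - Γ' := by module
  rw [e] at d
  exact ⟨hX.sub (hs.smul _), Γ', a.car, b, c, d.nef, d.big_iff.1 hb⟩

theorem amp_nhds {ι : Type} [Fintype ι] {F : ι → BD K} (hF : ∀ i, Dsc Ω (F i)) (hA : AmpOn Ω A)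
    (a : ι → ℝ) : ∀ᶠ p in 𝓝 a, AmpOn Ω (A + lc F (p - a)) ∧
      AmpOn Ω ((2 : ℝ) • A - (A + lc F (p - a))) := by
  have t : Tendsto (fun p => p - a) (𝓝 a) (𝓝 0) := Continuous.tendsto' (by fun_prop) _ _ (by simp)
  have t' : Tendsto (fun p => a - p) (𝓝 a) (𝓝 0) := Continuous.tendsto' (by fun_prop) _ _ (by simp)
  filter_upwards [t.eventually (amp_near hF hA), t'.eventually (amp_near hF hA)] with p x y
  refine ⟨x, ?_⟩
  rwa [show (2 : ℝ) • A - (A + lc F (p - a)) = A + lc F (a - p) by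
    rw [Ge.lc_sub, Ge.lc_sub]; module]

theorem op_seg {ι : Type} {p v : ι → ℝ} (h : p ∈ Op ι) (h' : p + v ∈ Op ι) {t : ℝ} (a : 0 ≤ t)
    (b : t ≤ 1) : p + t • v ∈ Op ι := fun i => by
  have x := h i
  have y := h' i
  simp only [Pi.add_apply, Pi.smul_apply, smul_eq_mul] at y ⊢
  rcases le_total 0 (v i) with e | e <;> nlinarith

theorem op_ne {ι : Type} [Nonempty ι] {p : ι → ℝ} (h : p ∈ Op ι) : p ≠ 0 := fun e =>
  (h (Classical.arbitrary ι)).ne' (congrFun e _)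

/-- a generic segment from `D + A` to `D' + A` -/
theorem line (h : MA) (hK : FF K (n + 1)) (hU : Sp Ω U) (hD : D ∈ U) (hD' : D' ∈ U) {A₀ : BD K}
    (hA : A₀ ∈ U) (hs : mx s ∈ U) (ha : AmpOn Ω A₀)
    (w : ∀ X ∈ U, AmpOn Ω (X - D) ∨ AmpOn Ω (X - D') → Adw n Ω (X - (n + 2 : ℝ) • mx s)) :
    ∃ (ι : Type) (_ : Fintype ι) (F : ι → BD K) (H : Finset (ι → ℤ)) (N : (ι → ℝ) → BD K)
      (p v : ι → ℝ), ∃ A ∈ U, AmpOn Ω A ∧ AmpOn Ω ((2 : ℝ) • A₀ - A) ∧ Cx Ω U F H N ∧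
      lc F v = D' - D ∧ (∀ t : ℝ, lc F (p + t • v) = D + A + t • (D' - D)) ∧
      (∀ t : ℝ, Fl H (p + t • v) ⊔ Submodule.span ℝ {v} = ⊤) ∧
      (∀ t : ℝ, 0 ≤ t → t ≤ 1 → p + t • v ∈ Op ι) ∧ (∀ a ∈ Op ι, Psef (lc F a) → a ∈ Ec F) ∧
      ∀ y ∈ Ec F, y ∈ Op ι → Dsc (lc F y - N y) (mx s) := by
  obtain ⟨ι, _, _, F, f1, f2, ⟨a, a1, a2⟩, b, b1, b2⟩ := hU.two hD hD' hA ha
  obtain ⟨H, N, z1, z2, z3⟩ := zct h hK hU.smp hU.big (hU.des hs) fun i =>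
    ⟨(f1 i).1, w _ (f1 i).2.1 (f1 i).2.2⟩
  have t : Tendsto (fun p => p + (b - a)) (𝓝 a) (𝓝 b) :=
    Continuous.tendsto' (by fun_prop) _ _ (by simp)
  obtain ⟨p, ⟨⟨p1, p2⟩, p3, p4⟩, p5⟩ := exists_line H (b - a) (a := a)
    (((Ge.op_open.eventually_mem a1).and (t.eventually (Ge.op_open.eventually_mem b1))).and
      (amp_nhds (fun i => hU.des (f1 i).2.1) ha a))
  have e : lc F (b - a) = D' - D := by rw [Ge.lc_sub, a2, b2, add_sub_add_right_eq_sub]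
  refine ⟨ι, inferInstance, F, H, N, p, b - a, _, add_mem hA (lc_mem (fun i => (f1 i).2.1) _), p3,
    p4, ⟨hU.smp, hU.big, fun _ => hU.des, fun i => (f1 i).2.1, f2, ⟨_, hA, ha⟩, z1⟩, e,
    fun t => ?_, p5, fun t => op_seg p1 p2, fun a x => z2 a fun i => (x i).le,
    fun y x k => z3 y x (op_ne k)⟩
  rw [Ge.lc_add, Ge.lc_smul, e, Ge.lc_sub, a2]
  abel

theorem run (h : MA) : RUN := by
  classical
  intro n K _ _ hK Ω Γ w A₀ U s m hU hΓ hw hA hs ha p0 p1 hm e0 e1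
  obtain ⟨ι, _, F, H, N, p, v, A, a1, a2, a3, c, l1, l2, l3, l4, l5, l6⟩ :=
    line h hK hU (add_mem hΓ (U.smul_mem m hs)) (add_mem (add_mem hΓ hw) (U.smul_mem m hs)) hA hs ha
      fun X hX k => k.elim (adw_of hU.big p0 (hU.des hX) (hU.des hs) hm)
        (adw_of hU.big p1 (hU.des hX) (hU.des hs) hm)
  rw [show Γ + w + m • mx s - (Γ + m • mx s) = w by abel] at l1 l2
  rw [add_right_comm Γ] at l2
  have ec : ∀ t : ℝ, 0 ≤ t → t ≤ 1 → p + t • v ∈ Ec F := fun t x y => l5 _ (l4 t x y) (by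
    rw [l2, show Γ + A + m • mx s + t • w =
      (1 - t) • (Γ + m • mx s) + t • (Γ + w + m • mx s) + A by module]
    exact ((e0.smul (sub_nonneg.2 y)).add (e1.smul x)).add a2.smp.psef)
  obtain ⟨k, τ, k0, t0, t1, t2⟩ := exists_seq (H.image fun g => -pr g p / pr g v)
  have nz : ∀ i < k, ∀ g ∈ H, pr g v ≠ 0 → ∀ r, τ (i + 1) < r → r < τ i →
      pr g (p + r • v) ≠ 0 := fun i hi g hg x r y z e => (t2 i hi).2.2.2 r y z
    (Finset.mem_image.2 ⟨g, hg, by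
      rw [pr_add, pr_smul] at e
      field_simp
      linarith⟩)
  have fu : ∀ i < k, ∀ r, τ (i + 1) < r → r < τ i → Fl H (p + r • v) = ⊤ := fun i hi r y z =>
    top_of (l3 r) fun g hg e => by_contra fun x => nz i hi g hg x r y z e
  have md : ∀ i < k, τ (i + 1) < (τ (i + 1) + τ i) / 2 ∧ (τ (i + 1) + τ i) / 2 < τ i := fun i hi =>
    ⟨by linarith [(t2 i hi).1], by linarith [(t2 i hi).1]⟩
  choose! Φ hΦ using fun i (hi : i < k) => exists_mv c.zc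
    (ec _ ((t2 i hi).2.1.trans (md i hi).1.le) ((md i hi).2.le.trans (t2 i hi).2.2.1))
    (fu i hi _ (md i hi).1 (md i hi).2)
  have mv : ∀ i < k, ∀ t, τ (i + 1) ≤ t → t ≤ τ i → Mv F H N (Φ i) (p + t • v) :=
    fun i hi t x y => (hΦ i hi).mono (seg_cell (nz i hi) (md i hi).1 (md i hi).2 x y)
  refine ⟨A, a1, a2, a3, k, τ, Φ, k0, t0, t1, fun i hi => (t2 i hi).1, fun i hi t x y => ?_,
    fun i hi t x y => ?_⟩
  · rw [← l2]
    exact c.chm h hK (ec t ((t2 i hi).2.1.trans x.le) (y.le.trans (t2 i hi).2.2.1)) (fu i hi t x y)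
      (mv i hi t x.le y.le)
  · have x' := (t2 i hi).2.1.trans x
    have y' := y.trans (t2 i hi).2.2.1
    rw [← l2, ← l1]
    refine ⟨c.wl (ec t x' y') (mv i hi t x y) (l3 t), ?_⟩
    rw [mv i hi t x y _ (mem_cell_self H _)]
    exact l6 _ (ec t x' y') (l4 t x' y')

theorem end' (h : MA) : END := by
  intro n K _ _ hK Ω Γ w A₀ U s m hU hΓ hw hA hs ha p0 sw bw hm e0
  have hD := add_mem hΓ (U.smul_mem m hs)
  obtain ⟨ε, ε0, e1⟩ := bw.exists_eff (neg_mem (hU.des hD).car)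
  have i0 := inv_pos.2 ε0
  have sw' : ∀ {c : ℝ}, 0 ≤ c → ∀ {X}, AmpOn Ω X → AmpOn Ω (X + c • w) := fun x _ y =>
    y.add_smp (sw.smul x) ((hU.des hw).smul _)
  obtain ⟨ι, _, F, H, N, p, v, A, a1, a2, a3, c, l1, l2, l3, l4, l5, l6⟩ :=
    line h hK hU hD (add_mem hD (U.smul_mem ε⁻¹ hw)) hA hs ha
      fun X hX k => adw_of hU.big p0 (hU.des hX) (hU.des hs) hm (k.elim id fun k => by
        simpa [← sub_sub] using sw' i0.le k)
  rw [add_sub_cancel_left] at l1 l2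
  have cl : IsClosed {t : ℝ | p + t • v ∈ Ec F} := (Ge.ec_closed c.zc).preimage (by fun_prop)
  obtain ⟨τ, ⟨⟨t0, t1⟩, t2⟩, t3⟩ := (isCompact_Icc.inter_right cl).exists_isLeast
    ⟨1, ⟨zero_le_one, le_rfl⟩, l5 _ (l4 1 zero_le_one le_rfl) (by
      rw [l2, show Γ + m • mx s + A + (1 : ℝ) • ε⁻¹ • w = ε⁻¹ • (w - ε • -(Γ + m • mx s)) + A by
        rw [smul_sub, inv_smul_smul₀ ε0.ne']; module]
      exact (e1.smul i0.le).psef.add a2.smp.psef)⟩
  have t4 : 0 < τ := t0.lt_of_ne fun e => e0 (by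
    have k := t2.2.psef.add a3.smp.psef
    rwa [l2, ← e, show Γ + m • mx s + A + (0 : ℝ) • ε⁻¹ • w + ((2 : ℝ) • A₀ - A) =
      Γ + (2 : ℝ) • A₀ + m • mx s by module] at k)
  have nb : ¬ Big (lc F (p + τ • v)) := fun b => by
    obtain ⟨η, η0, k⟩ := b.opn (lc_mem c.mem v |> hU.des).car
    have q := lt_min η0 t4
    have k' := k (-min η τ) (by rw [abs_neg, abs_of_pos q]; exact min_le_left _ _)
    rw [← Ge.lc_smul, ← Ge.lc_add, add_assoc, ← add_smul] at k'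
    have x : 0 ≤ τ + -min η τ := by linarith [min_le_right η τ]
    have y : τ + -min η τ ≤ 1 := by linarith
    linarith [t3 ⟨⟨x, y⟩, l5 _ (l4 _ x y) k'.psef⟩]
  set x := p + τ • v
  obtain ⟨u, hu⟩ := c.onto _ (sub_mem (lc_mem c.mem x) hΓ)
  have ex : lc F x = Γ + A + (τ * ε⁻¹) • w + m • mx s := by rw [l2, smul_smul]; abel
  have au : AmpOn Ω (lc F u) := by
    rw [hu, ex, show Γ + A + (τ * ε⁻¹) • w + m • mx s - Γ = A + (τ * ε⁻¹) • w + m • mx s by abel]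
    exact (sw' (by positivity) a2).add_smp ((smp_mx s).smul (le_trans (by positivity) hm))
      ((hU.des hs).smul _)
  have bu := au.big_iff.1 hU.big
  have nf : u ∉ Fl H x := fun k => by
    obtain ⟨η, η0, k⟩ := Ge.cell_push k
    have k' := (c.zc.sub x t2 (k (-η) (by rw [abs_neg, abs_of_pos η0]))).2
    rw [Ge.lc_add, Ge.lc_smul] at k'
    exact nb (by simpa using (bu.smul η0).add_eff k')
  have tv := swap (l3 τ) nf
  obtain ⟨δ, δ0, d⟩ := near_full tv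
  have ev : ∀ᶠ r : ℝ in 𝓝 0, x + r • u ∈ Op ι := Tendsto.eventually
    (Continuous.tendsto' (by fun_prop) _ x (by simp)) (Ge.op_open.eventually_mem (l4 τ t0 t1))
  obtain ⟨r, ⟨r1, r2⟩, r0⟩ := (((ev.and (eventually_le_nhds δ0)).filter_mono
    nhdsWithin_le_nhds).and (self_mem_nhdsWithin (s := Ioi 0))).exists
  have ez : lc F (x + r • u) = lc F x + r • (lc F x - Γ) := by rw [Ge.lc_add, Ge.lc_smul, hu]
  have zc : x + r • u ∈ Ec F := l5 _ r1 (by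
    rw [Ge.lc_add, Ge.lc_smul]
    exact t2.2.psef.add (bu.smul r0).psef)
  obtain ⟨Φ, hΦ⟩ := exists_mv c.zc zc (d r r0 r2).1
  have mx' := hΦ.mono (d r r0 r2).2
  have wl := c.wl t2 mx' tv
  refine ⟨A, a1, a2, a3, τ * ε⁻¹, r, lc F x, Φ, by positivity, r0, ex,
    ez ▸ c.chm h hK zc (d r r0 r2).1 hΦ, ⟨wl.zd, fun β hβ => ?_⟩,
    fun b => nb (b.mono (sub_nonneg.1 wl.zd.nn)), ?_⟩
  · obtain ⟨t, k⟩ := wl.rk β hβ
    refine ⟨-t, ?_⟩
    have := k.add ((Dsc.refl k.smp).smul t)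
    rwa [hu, map_sub, show Φ β - t • (Φ (lc F x) - Φ Γ) + t • Φ (lc F x) = Φ β - -t • Φ Γ by
      module] at this
  · rw [mx' _ (mem_cell_self H _)]
    exact l6 _ t2 (l4 τ t0 t1)

theorem min' (h : MA) : MIN := by
  classical
  intro n K _ _ hK Ω D A₀ U hU hD hA ha q ad e
  obtain ⟨ι, _, _, F, f1, f2⟩ := hU.nb hD hA ha
  let G : ι ⊕ Unit → BD K := Sum.elim F fun _ => D
  have g1 : ∀ i, G i ∈ U := fun i => by
    cases i with
    | inl i => exact (f1 i).2.1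
    | inr i => exact hD
  have g2 : ∀ a (t : ℝ), lc G (Sum.elim a fun _ => t) = lc F a + t • D := fun a t => by
    simp [G, lc]
  obtain ⟨H, N, z1, z2, -⟩ := zct h hK (F := G) (s := ∅) hU.smp hU.big
    (mx_empty (K := K) ▸ Dsc.zero hU.smp) fun i => by
      rw [mx_empty, smul_zero, sub_zero]
      cases i with
      | inl i =>
        obtain ⟨Γ, b1, b2, b3, b4, b5⟩ := ad.2
        have x : F i - Γ = D - Γ + (F i - D) := by abel
        exact ⟨(f1 i).1, (hU.des (g1 _)), Γ, b1, b2, b3, x ▸ b4.add (f1 i).2.2.nef,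
          x ▸ b5.add_nef (f1 i).2.2.nef⟩
      | inr i => exact ⟨q, ad⟩
  have c : Cx Ω U G H N := ⟨hU.smp, hU.big, fun _ => hU.des, g1, fun β hβ =>
    let ⟨a, x⟩ := onto_of f2 hβ
    ⟨_, by rw [g2 a 0, x, zero_smul, add_zero]⟩, ⟨_, hA, ha⟩, z1⟩
  obtain ⟨ε, ε0, k⟩ := f2 0 (zero_mem _)
  obtain ⟨a, a1, a2⟩ := k 0 (by simpa using ε0.le)
  let y : ι ⊕ Unit → ℝ := Sum.elim 0 fun _ => 1
  let u : ι ⊕ Unit → ℝ := Sum.elim a fun _ => -1
  have ey : lc G y = D := by rw [g2, Ge.lc_zero, zero_add, one_smul]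
  have eu : lc G u = A₀ := by rw [g2, a2]; module
  have t : Tendsto (fun p => p + (2 : ℝ) • y) (𝓝 u) (𝓝 (u + (2 : ℝ) • y)) :=
    Continuous.tendsto (by fun_prop) _
  obtain ⟨p, ⟨p1, p3, p4⟩, p5⟩ := exists_line H y (a := u)
    ((t.eventually (Ge.op_open.eventually_mem fun i => by
      cases i with
      | inl i => simpa [u, y] using a1 i
      | inr i => norm_num [u, y])).and (amp_nhds (fun i => hU.des (g1 i)) ha u))
  rw [Ge.lc_sub, eu, add_sub_cancel] at p3 p4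
  have ev : ∀ᶠ r : ℝ in 𝓝 0, y ∈ cell H (y + r • p) :=
    Tendsto.eventually (Continuous.tendsto' (by fun_prop) _ _ (by simp)) (cell_near H y)
  obtain ⟨δ, ⟨d1, d2⟩, d0⟩ := (((ev.and (eventually_le_nhds one_half_pos)).filter_mono
    nhdsWithin_le_nhds).and (self_mem_nhdsWithin (s := Ioi 0))).exists
  have d0 : 0 < δ := d0
  have zc : y + δ • p ∈ Ec G := z2 _ (by
    rw [show y + δ • p = (1 - 2 * δ) • y + δ • (p + (2 : ℝ) • y) by module]
    exact add_nonneg (smul_nonneg (by linarith) fun i => by cases i <;> simp [y])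
      (smul_nonneg d0.le fun i => (p1 i).le)) (by
    rw [Ge.lc_add, Ge.lc_smul, ey]
    exact e.add (p3.smp.psef.smul d0.le))
  have ce : ∀ η, 0 < η → η ≤ δ → y + η • p ∈ cell H (y + δ • p) := fun η x z => by
    rw [show y + η • p = (1 - η / δ) • y + (η / δ) • (y + δ • p) by
      rw [smul_add, smul_smul, div_mul_cancel₀ _ d0.ne']; module]
    exact add_mem_cell (smul_mem_cell d1 (sub_nonneg.2 ((div_le_one d0).2 z)))
      (smul_mem_cell (mem_cell_self H _) (by positivity))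
  have fu : ∀ η, 0 < η → η ≤ δ → Fl H (y + η • p) = ⊤ := fun η x z => by
    have w : Fl H (y + η • p) = Fl H (p + η⁻¹ • y) := by
      rw [show y + η • p = η • (p + η⁻¹ • y) by rw [smul_add, smul_inv_smul₀ x.ne', add_comm]]
      exact Submodule.ext fun b => forall₂_congr fun g _ => by
        rw [pr_smul, mul_eq_zero, or_iff_right x.ne']
    refine top_of (w ▸ p5 η⁻¹) fun g hg r => ?_
    have x1 := d1 g hg
    rw [pr_add, pr_smul] at r x1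
    rcases lt_trichotomy (pr g y) 0 with o | o | o
    · have b : 0 < pr g p := (mul_pos_iff_of_pos_left x).1 (by linarith)
      exact absurd (x1.1 (by nlinarith)) o.not_ge
    · exact o
    · have b : 0 < -pr g p := (mul_pos_iff_of_pos_left x).1 (by linarith)
      exact absurd (x1.2 (by nlinarith)) o.not_ge
  obtain ⟨Φ, hΦ⟩ := exists_mv z1 zc (fu δ d0 le_rfl)
  refine ⟨_, lc_mem g1 p, p3, p4, Φ, ey ▸ hΦ.zd z1 zc d1, δ, d0, fun η x z => ?_⟩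
  rw [← ey, ← Ge.lc_smul, ← Ge.lc_add]
  exact c.chm h hK (z1.sub _ zc (ce η x z)) (fu η x z) (hΦ.mono (ce η x z))

end Vale.Agent.P287D.Mm
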