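import Vale.Agent.P287D.Ge.St

/-!
# P287D: the minimal model program with scaling, Mori fibre spaces (statements)
-/

set_option linter.unusedVariables false

open Set

noncomputable section

namespace Vale.Agent.P287D.Mm

section defs

variable {K : Type} [Field K] [Algebra ℂ K]

/-- adjoint classes: a klt pair on `V Ω` plus an ample class -/
def Adj (n : ℕ) (Ω D : BD K) : Prop :=
  ∃ Γ, Dsc Ω Γ ∧ Klt (n + 1) Γ ∧ Bdy n Ω Γ ∧ AmpOn Ω (D - Γ)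

/-- weakly adjoint classes -/
def Adw (n : ℕ) (Ω D : BD K) : Prop :=
  Dsc Ω D ∧ ∃ Γ ∈ Car K, Klt (n + 1) Γ ∧ Bdy n Ω Γ ∧ Nef (D - Γ) ∧ Big (D - Γ)

/-- klt, dlt and log smooth lc pairs on `V Ω` -/
def Pre (n : ℕ) (Ω Γ : BD K) : Prop := ∀ A, AmpOn Ω A → Adj n Ω (Γ + A)

/-- a master model `V Ω` and a finite dimensional rational space of its divisors -/
structure Sp (Ω : BD K) (U : Submodule ℝ (BD K)) : Prop where
  smp : Smp Ω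
  big : Big Ω
  ex : ∃ T : Finset (BD K), (∀ β ∈ T, CarQ β ∧ Dsc Ω β) ∧ U = Submodule.span ℝ (T : Set (BD K))

/-- `D` is in an open chamber of `U`: `V (Φ D)` is the ample model of all classes near `D`, and
`Φ β` is the pull back of the strict transform of `β` -/
structure Chm (n : ℕ) (Ω : BD K) (U : Submodule ℝ (BD K)) (Φ : BD K →ₗ[ℝ] BD K) (D : BD K) :
    Prop where
  mem : D ∈ U
  near : ∀ β ∈ U, ∃ ε : ℝ, 0 < ε ∧ ∀ c : ℝ, |c| ≤ ε → ZD (D + c • β) (D + c • β - Φ (D + c • β))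
  smp : Smp (Φ D)
  big : Big (Φ D)
  le : Φ D ≤ D
  on : ∀ P, On n (Φ D) P ↔ On n Ω P ∧ Φ D P = D P
  des : ∀ β ∈ U, Dsc (Φ D) (Φ β)
  tr : ∀ β ∈ U, ∀ P, Φ D P = D P → Φ β P = β P
  fix : ∀ β ∈ U, Dsc (Φ D) β → Φ β = β
  nef : ∀ β ∈ U, Nef β → β ≤ Φ β
  rat : ∀ β ∈ U, CarQ β → CarQ (Φ β)

/-- `D` is in the closure of the chamber of `Φ`, `V (Φ D)` is its ample model, of relative rank
at most one with the generator `w` -/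
structure Wl (U : Submodule ℝ (BD K)) (Φ : BD K →ₗ[ℝ] BD K) (D w : BD K) : Prop where
  zd : ZD D (D - Φ D)
  rk : ∀ β ∈ U, ∃ c : ℝ, Dsc (Φ D) (Φ β - c • Φ w)

/-- a run along the segment `D + t • w` from `t = 1` to `t = 0` over the base `V T` -/
structure Run (n : ℕ) (Ω : BD K) (U : Submodule ℝ (BD K)) (D w T : BD K) (k : ℕ) (τ : ℕ → ℝ)
    (Φ : ℕ → BD K →ₗ[ℝ] BD K) : Prop where
  pos : 0 < k
  top : τ 0 = 1
  bot : τ k = 0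
  lt : ∀ i < k, τ (i + 1) < τ i
  chm : ∀ i < k, ∀ t, τ (i + 1) < t → t < τ i → Chm n Ω U (Φ i) (D + t • w)
  wl : ∀ i < k, ∀ t, τ (i + 1) ≤ t → t ≤ τ i →
    Wl U (Φ i) (D + t • w) w ∧ Dsc (Φ i (D + t • w)) T

/-- `V L → V B` is a fibration of Mori type, `G` is the canonical divisor -/
structure Mf (n : ℕ) (L G B : BD K) : Prop where
  term : Term n L G
  smp : Smp B
  des : Dsc L B
  nb : ¬ Big B
  amp : ∃ m : ℝ, AmpOn L (m • B - G)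

/-- the Weil divisor `Z` is `ℝ`-Cartier on `V L` and proportional to `G` over `V B` -/
def Rk1 (n : ℕ) (L G B Z β : BD K) : Prop := Hull n L Z β ∧ ∃ a : ℝ, Dsc B (β - a • G)

end defs

/-- **REL**: relative is absolute -/
def REL : Prop := ForS fun n K _ _ => ∀ (Λ D Γ N : BD K) (s : Finset K), Smp Λ → Big Λ → CarQ D →
  Dsc Λ D → Γ ∈ Car K → Klt (n + 1) Γ → Bdy n Λ Γ → Dsc Λ (mx s) →
  Nef (D - Γ - (n + 2 : ℝ) • mx s) → Big (D - Γ - (n + 2 : ℝ) • mx s) → ZD D N → CarQ N →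
  Dsc (D - N) (mx s)

/-- the rows which are used -/
structure MA : Prop where
  mod : MOD
  res : RES
  neg : NEG
  sep : SEP
  zar : ZAR
  rel : REL

/-- **RUN**: the program with scaling of `w` over `V (mx s)` -/
def RUN : Prop := ForS fun n K _ _ => ∀ (Ω Γ w A₀ : BD K) (U : Submodule ℝ (BD K)) (s : Finset K)
  (m : ℝ), Sp Ω U → Γ ∈ U → w ∈ U → A₀ ∈ U → mx s ∈ U → AmpOn Ω A₀ → Pre n Ω Γ →
  Pre n Ω (Γ + w) → (n + 2 : ℝ) ≤ m → Psef (Γ + m • mx s) → Psef (Γ + w + m • mx s) →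
  ∃ A ∈ U, AmpOn Ω A ∧ AmpOn Ω ((2 : ℝ) • A₀ - A) ∧
    ∃ k τ Φ, Run n Ω U (Γ + A + m • mx s) w (mx s) k τ Φ

/-- **MIN**: good minimal models of rational klt pairs with a nef and big part -/
def MIN : Prop := ForS fun n K _ _ => ∀ (Ω D A₀ : BD K) (U : Submodule ℝ (BD K)), Sp Ω U →
  D ∈ U → A₀ ∈ U → AmpOn Ω A₀ → CarQ D → Adw n Ω D → Psef D →
  ∃ A ∈ U, AmpOn Ω A ∧ AmpOn Ω ((2 : ℝ) • A₀ - A) ∧
    ∃ Φ : BD K →ₗ[ℝ] BD K, ZD D (D - Φ D) ∧ ∃ δ : ℝ, 0 < δ ∧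
      ∀ η, 0 < η → η ≤ δ → Chm n Ω U Φ (D + η • A)

/-- **END**: the program with scaling of `w` ends with a fibration `V (Φ (x + δ • (x - Γ))) →
V (Φ x) → V (mx s)` -/
def END : Prop := ForS fun n K _ _ => ∀ (Ω Γ w A₀ : BD K) (U : Submodule ℝ (BD K)) (s : Finset K)
  (m : ℝ), Sp Ω U → Γ ∈ U → w ∈ U → A₀ ∈ U → mx s ∈ U → AmpOn Ω A₀ → Pre n Ω Γ → Smp w →
  Big w → (n + 2 : ℝ) ≤ m → ¬ Psef (Γ + (2 : ℝ) • A₀ + m • mx s) →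
  ∃ A ∈ U, AmpOn Ω A ∧ AmpOn Ω ((2 : ℝ) • A₀ - A) ∧ ∃ (τ δ : ℝ) (x : BD K) (Φ : BD K →ₗ[ℝ] BD K),
    0 < τ ∧ 0 < δ ∧ x = Γ + A + τ • w + m • mx s ∧ Chm n Ω U Φ (x + δ • (x - Γ)) ∧ Wl U Φ x Γ ∧
    ¬ Big (Φ x) ∧ Dsc (Φ x) (mx s)

/-- **MFT**: the program for a terminal `V Ω` over `V (mx s)` -/
def MFT : Prop := ForS fun n K _ _ => ∀ (Ω κ : BD K) (s : Finset K) (m : ℝ) (S : Set (BD K)),
  Term n Ω κ → Dsc Ω (mx s) → (n + 2 : ℝ) ≤ m → ¬ Psef (κ + m • mx s) → S.Finite →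
  (∀ β ∈ S, Dsc Ω β) → ∃ L G B, Mf n L G B ∧ Dsc B (mx s) ∧ (∀ P, On n L P → On n Ω P) ∧ G ≤ κ ∧
    ∀ β ∈ S, ∃ γ, Rk1 n L G B β γ ∧ (Nef β → β ≤ γ) ∧ (CarQ β → CarQ γ)

/-- **MFS**: a pair `Γ` with an effective boundary on `V Λ` (no condition on the singularities),
anti-ample over `V (mx s)`, has a terminal Mori fibre space with an effective boundary -/
def MFS : Prop := ForS fun n K _ _ => ∀ (Λ Γ : BD K) (s : Finset K) (c : ℝ) (S : Set (Pl K)),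
  Smp Λ → Big Λ → Dsc Λ Γ → Bdy n Λ Γ → Dsc Λ (mx s) → ¬ Big (mx s) → Smp (c • mx s - Γ) →
  Big (c • mx s - Γ) → S.Finite →
  ∃ L G B Γ', Mf n L G B ∧ CarQ G ∧ Dsc B (mx s) ∧ Bdy n L Γ ∧ Rk1 n L G B Γ Γ' ∧ Γ' ≤ Γ ∧
    ∀ P, On n L P → P ∈ S ∨ dsc (n + 1) Γ P ≠ 0 → ∃ β, CarQ β ∧ Rk1 n L G B P.δ β

/-- **MFQ**: the same with a `ℚ`-factorial total space of relative Picard number one -/
def MFQ : Prop := ForS fun n K _ _ => ∀ (Λ Γ : BD K) (s : Finset K) (c : ℝ),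
  Smp Λ → Big Λ → Dsc Λ Γ → Bdy n Λ Γ → Dsc Λ (mx s) → ¬ Big (mx s) → Smp (c • mx s - Γ) →
  Big (c • mx s - Γ) →
  ∃ L G B Γ', Mf n L G B ∧ QF n L ∧ Dsc B (mx s) ∧ Bdy n L Γ ∧ Hull n L Γ Γ' ∧ Γ' ≤ Γ ∧
    ∀ β, Dsc L β → ∃ a : ℝ, Dsc B (β - a • G)

/-- **TRM**: terminal varieties are smooth in codimension two -/
def TRM : Prop := ∀ (n : ℕ) (K : Type) [Field K] [Algebra ℂ K], FF K (n + 2) →
  ∀ (Λ Γ β : BD K) (P : Pl K), Term (n + 1) Λ Γ → Dsc Λ β →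
    (∀ Q, On (n + 1) Λ Q → ∃ z : ℤ, β Q = z) → n ≤ cd Λ P → ∃ z : ℤ, β P = z

end Vale.Agent.P287D.Mm
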