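import Vale.Agent.P287D.Mm.St
import Vale.Agent.P287D.Gs.Ful
import Vale.Agent.P287D.Ge.Zc
import Vale.Agent.P287D.Va.Dsc

/-!
# P287D: chambers and walls
-/

open Set
open P277Z.Gor

noncomputable section

namespace Vale.Agent.P287D.Mm

variable {K : Type} [Field K] [Algebra ℂ K] {n : ℕ} {Ω Λ Λ' L A G β γ D Z w : BD K} {P : Pl K}
  {U : Submodule ℝ (BD K)} {Φ : BD K →ₗ[ℝ] BD K}

theorem res_prn (hR : RES) (hK : FF K (n + 1)) (P : Pl K) (h : β ∈ Prn K) : res P β ∈ Prn P.κ := by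
  refine Prn.ind (p := fun β => res P β ∈ Prn P.κ) h (fun f hf => ?_) ?_ ?_
  · exact hR.pri n K hK P f hf ▸ dv_mem_Prn _
  · intro a b ha hb x y
    rw [hR.add n K hK P a (Prn_le_Car ha) b (Prn_le_Car hb)]
    exact add_mem x y
  · intro c a ha x
    rw [hR.smul n K hK P c a (Prn_le_Car ha)]
    exact Submodule.smul_mem _ c x

theorem on_mono (hR : RES) (hK : FF K (n + 1)) (hΛ : Smp Λ) (h : Dsc Λ' Λ) (hP : On n Λ P) :
    On n Λ' P :=
  (hR.on n K hK _ P h.smp).2 ((hR.des n K hK _ _ P h).big ((hR.on n K hK _ P hΛ).1 hP))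

theorem on_amp (hR : RES) (hK : FF K (n + 1)) (h : AmpOn Λ Λ') : On n Λ P ↔ On n Λ' P :=
  ⟨on_mono hR hK h.smp_left h.dsc', on_mono hR hK h.smp h.1⟩

/-- primes outside the augmented base locus survive -/
theorem on_plus (hR : RES) (hK : FF K (n + 1)) (hL : Smp L) (hA : AmpOn Ω A) (hG : 0 ≤ G)
    (e : L - A - G ∈ Prn K) (hP : G P = 0) (o : On n Ω P) : On n L P := by
  have c : G ∈ Car K := by simpa using sub_mem (sub_mem hL.car hA.car) (Prn_le_Car e)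
  have q : L = A + G + (L - A - G) := by abel
  refine (hR.on n K hK _ P hL).2 ?_
  rw [q, hR.add n K hK P _ (add_mem hA.car c) _ (Prn_le_Car e), hR.add n K hK P _ hA.car _ c]
  exact (((hR.on n K hK _ P hA.smp).1 ((on_amp hR hK hA).1 o)).add_eff
    (.of_nonneg (hR.nn n K hK P G c hG hP))).add_prn (res_prn hR hK P e)

theorem hull_eq (hN : NEG) (hK : FF K (n + 1)) (hb : Big Λ) (h : Hull n Λ Z β) (h' : Hull n Λ Z γ) :
    β = γ :=
  Gs.det_eq hN hK h.1.smp hb h.1 h'.1 fun P hP => (h.2 P hP).trans (h'.2 P hP).symm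

/-- nef classes are below their hulls -/
theorem le_hull (hN : NEG) (hK : FF K (n + 1)) (hb : Big Λ) (hβ : Nef β) (h : Dsc Λ γ)
    (e : ∀ P, On n Λ P → β P ≤ γ P) : β ≤ γ := by
  obtain ⟨c, -, k⟩ := h.neg.exists_add
  refine sub_nonpos.1 (hN.neg n K hK Λ _ c h.smp hb (sub_mem hβ.car h.car) ?_ fun P hP =>
    sub_nonpos.2 (e P hP))
  rw [sub_eq_add_neg, add_assoc]
  exact hβ.add (k c le_rfl).nef

theorem chm_of (h : MA) (hK : FF K (n + 1)) (hΩ : Smp Ω) (hb : Big Ω) (hU : ∀ β ∈ U, Dsc Ω β)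
    (hA : A ∈ U) (ha : AmpOn Ω A) (hD : D ∈ U) (near : ∀ β ∈ U, ∃ ε : ℝ, 0 < ε ∧ ∀ c : ℝ, |c| ≤ ε →
      ZD (D + c • β) (D + c • β - Φ (D + c • β))) : Chm n Ω U Φ D := by
  have z : ZD D (D - Φ D) := by
    obtain ⟨ε, e, k⟩ := near D hD
    simpa using k 0 (by simpa using e.le)
  have s : Smp (Φ D) := by simpa using z.smp
  have des : ∀ β ∈ U, Dsc (Φ D) (Φ β) := fun β hβ =>
    let ⟨ε, e, k⟩ := near β hβ
    .of_abs e fun c hc => by simpa using (k c hc).smp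
  have tr : ∀ β ∈ U, ∀ P, Φ D P = D P → Φ β P = β P := fun β hβ P hP => by
    obtain ⟨ε, e, k⟩ := near β hβ
    have a := (k ε (abs_of_pos e).le).nn P
    have b := (k (-ε) (by rw [abs_neg, abs_of_pos e])).nn P
    simp only [map_add, map_smul, Pi.sub_apply, Pi.add_apply, Pi.smul_apply, smul_eq_mul, hP,
      Pi.zero_apply] at a b
    nlinarith
  obtain ⟨ε, e, k⟩ := near A hA
  have k' := k (-ε) (by rw [abs_neg, abs_of_pos e])
  have big : Big (Φ D) := by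
    have := Gs.zd_big h.neg hK z (by
      simpa using ((ha.big_iff.1 hb).smul e).add_eff (Ge.zd_eff k'))
    simpa using this
  have on : ∀ P, On n (Φ D) P → On n Ω P ∧ Φ D P = D P := fun P hP => by
    have := Gs.on_zd h.neg hK h.mod h.sep hΩ hb (hU D hD) z (R := P) (by simpa using big)
      (by simpa using hP)
    exact ⟨this.1, (sub_eq_zero.1 this.2).symm⟩
  have nef : ∀ β ∈ U, Nef β → β ≤ Φ β := fun β hβ hn =>
    le_hull h.neg hK big hn (des β hβ) fun P hP => (tr β hβ P (on P hP).2).ge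
  refine ⟨hD, near, s, big, sub_nonneg.1 z.nn, fun P => ⟨on P, fun ⟨a, b⟩ => ?_⟩, des, tr,
    fun β hβ d => Gs.det_eq h.neg hK s big (des β hβ) d fun P hP => tr β hβ P (on P hP).2, nef,
    fun β hβ q => Gs.carQ_of h.neg hK s big (des β hβ) fun P hP => ?_⟩
  · obtain ⟨G, g1, g2⟩ := Gs.avoid h.neg hK k'.smp P
    refine on_plus h.res hK s (ha.smul e) (G := G + ε • (Φ A - A))
      (add_nonneg g1.1 (smul_nonneg e.le (sub_nonneg.2 (nef A hA ha.nef)))) ?_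
      (by simp [g2, tr A hA P b]) a
    have q : Φ D - ε • A - (G + ε • (Φ A - A)) =
        -(G - (D + -ε • A - (D + -ε • A - Φ (D + -ε • A)))) := by
      simp only [map_add, map_smul]
      module
    rw [q]
    exact neg_mem g1.2
  · rw [tr β hβ P (on P hP).2]
    exact q.rat P

namespace Chm

theorem zd (h : Chm n Ω U Φ D) : ZD D (D - Φ D) := by
  obtain ⟨ε, e, k⟩ := h.near D h.mem
  simpa using k 0 (by simpa using e.le)

theorem hull (h : Chm n Ω U Φ D) (hβ : β ∈ U) : Hull n (Φ D) β (Φ β) :=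
  ⟨h.des β hβ, fun P hP => h.tr β hβ P ((h.on P).1 hP).2⟩

/-- the hull of a Weil divisor which has a hull in `U` upstairs -/
theorem hull' (h : Chm n Ω U Φ D) (hβ : β ∈ U) (k : Hull n Ω Z β) : Hull n (Φ D) Z (Φ β) :=
  (h.hull hβ).congr fun P hP => k.2 P ((h.on P).1 hP).1

/-- two points of one open chamber have the same model -/
theorem amp {D' : BD K} (h : Chm n Ω U Φ D) (h' : Chm n Ω U Φ D') : AmpOn (Φ D) (Φ D') :=
  .of_dsc (h.des D' h'.mem) (h'.des D h.mem)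

/-- discrepancies grow by the fixed part -/
theorem pair_le {Γ : BD K} {c : ℝ} (h : Chm n Ω U Φ D) (hΓ : Γ ∈ U) (hn : Nef (D - c • Γ)) :
    c • Φ Γ ≤ c • Γ - (D - Φ D) := by
  have k := h.nef _ (sub_mem h.mem (U.smul_mem c hΓ)) hn
  rw [map_sub, map_smul] at k
  intro P
  have := k P
  simp only [Pi.sub_apply] at this ⊢
  linarith

/-- terminal models stay terminal -/
theorem term {κ : BD K} {c : ℝ} (h : Chm n Ω U Φ D) (ht : Term n Ω κ) (hκ : κ ∈ U) (hc : 0 < c)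
    (hn : Nef (D - c • κ)) : Term n (Φ D) (Φ κ) ∧ Φ κ ≤ κ := by
  have k : ∀ P, c * Φ κ P ≤ c * κ P - (D P - Φ D P) := h.pair_le hκ hn
  have l : ∀ P, Φ D P ≤ D P := h.le
  refine ⟨⟨h.smp, h.big, h.hull' hκ ht.hull, fun P hP => ?_⟩, fun P => ?_⟩
  · have a := k P
    have b := l P
    change 0 < cn K (n + 1) P - Φ κ P
    by_cases o : On n Ω P
    · have c1 : Φ D P < D P := lt_of_le_of_ne b fun x => hP ((h.on P).2 ⟨o, x⟩)
      rw [← ht.hull.2 P o]
      nlinarith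
    · have c1 : 0 < cn K (n + 1) P - κ P := ht.pos P o
      nlinarith
  · have a := k P
    have b := l P
    nlinarith

end Chm

section cells

variable {ι : Type} [Fintype ι] {F : ι → BD K} {H : Finset (ι → ℤ)} {N : (ι → ℝ) → BD K}
  {y z v : ι → ℝ}

/-- a family with cells which spans `U` -/
structure Cx (Ω : BD K) (U : Submodule ℝ (BD K)) (F : ι → BD K) (H : Finset (ι → ℤ))
    (N : (ι → ℝ) → BD K) : Prop where
  smp : Smp Ω
  big : Big Ω
  des : ∀ β ∈ U, Dsc Ω β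
  mem : ∀ i, F i ∈ U
  onto : ∀ β ∈ U, ∃ a, lc F a = β
  amp : ∃ A ∈ U, AmpOn Ω A
  zc : Zc F H N

/-- `Φ` is the moving part on the cell of `z` -/
def Mv (F : ι → BD K) (H : Finset (ι → ℤ)) (N : (ι → ℝ) → BD K) (Φ : BD K →ₗ[ℝ] BD K)
    (z : ι → ℝ) : Prop := ∀ a ∈ cell H z, Φ (lc F a) = lc F a - N a

theorem Mv.mono (h : Mv F H N Φ z) (e : y ∈ cell H z) : Mv F H N Φ y :=
  fun a ha => h a (cell_sub e ha)

theorem Mv.zd (h : Mv F H N Φ z) (c : Zc F H N) (hz : z ∈ Ec F) (e : y ∈ cell H z) :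
    ZD (lc F y) (lc F y - Φ (lc F y)) := by
  rw [h y e, sub_sub_cancel]
  exact c.zd y (c.sub z hz e)

theorem lc_mem (h : ∀ i, F i ∈ U) (a : ι → ℝ) : lc F a ∈ U :=
  U.sum_mem fun i _ => U.smul_mem _ (h i)

theorem exists_mv (c : Zc F H N) (hz : z ∈ Ec F) (f : Fl H z = ⊤) : ∃ Φ, Mv F H N Φ z := by
  obtain ⟨L, -, k⟩ := c.lin z hz
  obtain ⟨g₀, h₀⟩ := (Ge.lcl F).rangeRestrict.exists_rightInverse_of_surjective
    (LinearMap.range_rangeRestrict _)
  obtain ⟨g, hg⟩ := g₀.exists_extend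
  have z0 : ∀ a, lc F a = 0 → L a = 0 := fun a ha => by
    obtain ⟨ε, e, p⟩ := Ge.cell_push (H := H) (y := z) (a := a) (f ▸ Submodule.mem_top)
    have p' := p ε (abs_of_pos e).le
    have q := Ge.zd_uniq (c.zd _ (c.sub z hz p')) (c.zd z hz) (by
      rw [Ge.lc_add, Ge.lc_smul, ha]
      simp)
    rw [k _ p', k z (mem_cell_self H z), map_add, map_smul, add_eq_left] at q
    exact (smul_eq_zero.1 q).resolve_left e.ne'
  refine ⟨(Ge.lcl F - L).comp g, fun a ha => ?_⟩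
  have q : lc F (g (lc F a)) = lc F a :=
    (congrArg (lc F) (LinearMap.congr_fun hg ⟨lc F a, a, rfl⟩)).trans
      (congrArg Subtype.val (LinearMap.congr_fun h₀ ⟨lc F a, a, rfl⟩))
  have r := z0 (g (lc F a) - a) (by rw [Ge.lc_sub, q, sub_self])
  rw [map_sub, sub_eq_zero] at r
  change lc F (g (lc F a)) - L (g (lc F a)) = _
  rw [q, r, k a ha]

theorem Cx.chm (h : MA) (hK : FF K (n + 1)) (c : Cx Ω U F H N) (hz : z ∈ Ec F) (f : Fl H z = ⊤)
    (m : Mv F H N Φ z) : Chm n Ω U Φ (lc F z) := by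
  obtain ⟨A, a1, a2⟩ := c.amp
  refine chm_of h hK c.smp c.big c.des a1 a2 (lc_mem c.mem z) fun β hβ => ?_
  obtain ⟨a, rfl⟩ := c.onto β hβ
  obtain ⟨ε, e, p⟩ := Ge.cell_push (H := H) (y := z) (a := a) (f ▸ Submodule.mem_top)
  refine ⟨ε, e, fun t ht => ?_⟩
  rw [← Ge.lc_smul, ← Ge.lc_add]
  exact m.zd c.zc hz (p t ht)

theorem Mv.des (m : Mv F H N Φ y) (c : Zc F H N) (hy : y ∈ Ec F) (f : v ∈ Fl H y) :
    Dsc (Φ (lc F y)) (Φ (lc F v)) := by
  obtain ⟨ε, e, p⟩ := Ge.cell_push f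
  refine .of_abs e fun t ht => ?_
  have := (m.zd c hy (p t ht)).smp
  rwa [sub_sub_cancel, Ge.lc_add, Ge.lc_smul, map_add, map_smul] at this

theorem Cx.wl (c : Cx Ω U F H N) (hy : y ∈ Ec F) (m : Mv F H N Φ y)
    (t : Fl H y ⊔ Submodule.span ℝ {v} = ⊤) : Wl U Φ (lc F y) (lc F v) := by
  refine ⟨m.zd c.zc hy (mem_cell_self H y), fun β hβ => ?_⟩
  obtain ⟨a, rfl⟩ := c.onto β hβ
  obtain ⟨f, hf, _, hu, rfl⟩ := Submodule.mem_sup.1 (t ▸ Submodule.mem_top : a ∈ _)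
  obtain ⟨s, rfl⟩ := Submodule.mem_span_singleton.1 hu
  refine ⟨s, ?_⟩
  rw [Ge.lc_add, Ge.lc_smul, map_add, map_smul, add_sub_cancel_right]
  exact m.des c.zc hy hf

end cells

end Vale.Agent.P287D.Mm
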