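import Vale.Agent.P287D.Mm.Eng
import Vale.Agent.P287D.Ge.Ent

/-!
# P287D: families of adjoint classes, generic lines
-/

open Set Filter Topology
open P277Z.Gor

noncomputable section

namespace Vale.Agent.P287D.Mm

variable {K : Type} [Field K] [Algebra ℂ K] {n : ℕ} {Ω A β D : BD K} {U : Submodule ℝ (BD K)}

section cvx

variable {ι : Type} [Fintype ι] {H : Finset (ι → ℤ)} {p v y z : ι → ℝ}

/-- generic lines in the direction `v` -/
theorem exists_line (H : Finset (ι → ℤ)) (v : ι → ℝ) {O : Set (ι → ℝ)} {a : ι → ℝ} (h : O ∈ 𝓝 a) :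
    ∃ p ∈ O, ∀ t : ℝ, Fl H (p + t • v) ⊔ Submodule.span ℝ {v} = ⊤ := by
  classical
  obtain ⟨p, h2, h1⟩ := (Ge.dense_gen fun S : Finset (ι → ℤ) =>
    Fl S 0 ⊔ Submodule.span ℝ {v}).inter_nhds_nonempty h
  refine ⟨p, h1, fun t => by_contra fun k => ?_⟩
  have e : Fl H (p + t • v) = Fl (H.filter fun g => pr g (p + t • v) = 0) 0 :=
    Submodule.ext fun a => ⟨fun x g hg _ => x g (Finset.mem_filter.1 hg).1 (Finset.mem_filter.1 hg).2,
      fun x g hg e => x g (Finset.mem_filter.2 ⟨hg, e⟩) (pr_zero g)⟩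
  refine h2 _ (e ▸ k) (e ▸ ?_)
  have q : p = p + t • v + (-t) • v := by module
  rw [q]
  refine Submodule.add_mem_sup ?_ (Submodule.smul_mem _ _ (Submodule.mem_span_singleton_self v))
  rw [← q]
  exact fun _ _ x => x

theorem top_of (t : Fl H y ⊔ Submodule.span ℝ {v} = ⊤)
    (h : ∀ g ∈ H, pr g y = 0 → pr g v = 0) : Fl H y = ⊤ := by
  rwa [sup_eq_left.2 ((Submodule.span_singleton_le_iff_mem v (Fl H y)).2 h)] at t

/-- a transversal direction can be replaced -/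
theorem swap {u : ι → ℝ} (t : Fl H y ⊔ Submodule.span ℝ {v} = ⊤) (h : u ∉ Fl H y) :
    Fl H y ⊔ Submodule.span ℝ {u} = ⊤ := by
  obtain ⟨f, hf, _, hu, rfl⟩ := Submodule.mem_sup.1 (t ▸ Submodule.mem_top : u ∈ _)
  obtain ⟨s, rfl⟩ := Submodule.mem_span_singleton.1 hu
  have s0 : s ≠ 0 := fun e => h (by simpa [e] using hf)
  refine eq_top_iff.2 (t ▸ sup_le le_sup_left ((Submodule.span_singleton_le_iff_mem v _).2 ?_))
  have q : v = (-s⁻¹) • f + s⁻¹ • (f + s • v) := by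
    rw [smul_add, inv_smul_smul₀ s0]
    module
  nth_rewrite 2 [q]
  exact Submodule.add_mem_sup (Submodule.smul_mem _ _ hf)
    (Submodule.smul_mem _ _ (Submodule.mem_span_singleton_self _))

/-- points near `y` in a transversal direction are full and their cell contains `y` -/
theorem near_full (t : Fl H y ⊔ Submodule.span ℝ {v} = ⊤) : ∃ δ : ℝ, 0 < δ ∧ ∀ η, 0 < η → η ≤ δ →
    Fl H (y + η • v) = ⊤ ∧ y ∈ cell H (y + η • v) := by
  have k : ∀ᶠ c : ℝ in 𝓝 0, y ∈ cell H (y + c • v) :=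
    Tendsto.eventually (Continuous.tendsto' (by fun_prop) _ _ (by simp)) (cell_near H y)
  obtain ⟨ε, e, k⟩ := Metric.eventually_nhds_iff.1 k
  refine ⟨ε / 2, by positivity, fun η a b => ?_⟩
  have m := k (y := η) (by rw [Real.dist_eq, sub_zero, abs_of_pos a]; linarith)
  refine ⟨eq_top_iff.2 fun x _ g hg q => ?_, m⟩
  have q1 : pr g y = 0 := Ge.cell_fl m g hg q
  have q2 : pr g v = 0 := by
    rw [pr_add, pr_smul, q1, zero_add] at q
    exact (mul_eq_zero.1 q).resolve_left a.ne'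
  obtain ⟨f, hf, _, hu, rfl⟩ := Submodule.mem_sup.1 (t ▸ Submodule.mem_top : x ∈ _)
  obtain ⟨s, rfl⟩ := Submodule.mem_span_singleton.1 hu
  rw [pr_add, pr_smul, hf g hg q1, q2, mul_zero, add_zero]

theorem seg_cell {a b s t : ℝ} (h : ∀ g ∈ H, pr g v ≠ 0 → ∀ r, a < r → r < b → pr g (p + r • v) ≠ 0)
    (s1 : a < s) (s2 : s < b) (t1 : a ≤ t) (t2 : t ≤ b) : p + t • v ∈ cell H (p + s • v) := by
  intro g hg
  by_cases e : pr g v = 0
  · simp [pr_add, pr_smul, e]
  have k := h g hg e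
  simp only [pr_add, pr_smul] at k ⊢
  have r : pr g p + (-pr g p / pr g v) * pr g v = 0 := by field_simp; ring
  have o : -pr g p / pr g v ≤ a ∨ b ≤ -pr g p / pr g v := by
    by_contra c
    push Not at c
    exact k _ c.1 c.2 r
  generalize -pr g p / pr g v = u at r o
  have x : pr g p = -(u * pr g v) := by linarith
  rw [x]
  rcases lt_or_gt_of_ne e with e | e <;> rcases o with o | o <;> constructor <;> intro c <;>
    nlinarith

theorem exists_seq (S : Finset ℝ) : ∃ (k : ℕ) (τ : ℕ → ℝ), 0 < k ∧ τ 0 = 1 ∧ τ k = 0 ∧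
    ∀ i < k, τ (i + 1) < τ i ∧ 0 ≤ τ (i + 1) ∧ τ i ≤ 1 ∧ ∀ r, τ (i + 1) < r → r < τ i → r ∉ S := by
  classical
  have key : ∀ (m : ℕ) (S : Finset ℝ) (b : ℝ), S.card = m → 0 < b → ∃ (k : ℕ) (τ : ℕ → ℝ),
      0 < k ∧ τ 0 = b ∧ τ k = 0 ∧ ∀ i < k, τ (i + 1) < τ i ∧ 0 ≤ τ (i + 1) ∧ τ i ≤ b ∧
        ∀ r, τ (i + 1) < r → r < τ i → r ∉ S := by
    intro m
    induction m using Nat.strong_induction_on with
    | _ m ih =>
      intro S b hS hb
      by_cases e : (S.filter fun r => 0 < r ∧ r < b).Nonempty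
      · obtain ⟨c, c1, c2⟩ := Finset.exists_max_image _ id e
        obtain ⟨c3, c4, c5⟩ := Finset.mem_filter.1 c1
        obtain ⟨k, τ, a1, a2, a3, a4⟩ := ih _ (hS ▸ Finset.card_erase_lt_of_mem c3) (S.erase c) c rfl c4
        refine ⟨k + 1, fun i => Nat.casesOn i b τ, k.succ_pos, rfl, a3, fun i hi => ?_⟩
        cases i with
        | zero =>
          refine ⟨a2.trans_lt c5, c4.le.trans a2.ge, le_rfl, fun r x y z => ?_⟩
          have x' : c < r := a2.symm.trans_lt x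
          exact (c2 r (Finset.mem_filter.2 ⟨z, c4.trans x', y⟩)).not_gt x'
        | succ i =>
          obtain ⟨b1, b2, b3, b4⟩ := a4 i (by omega)
          exact ⟨b1, b2, b3.trans c5.le, fun r x y z =>
            b4 r x y (Finset.mem_erase.2 ⟨(y.trans_le b3).ne, z⟩)⟩
      · refine ⟨1, fun i => Nat.casesOn i b fun _ => 0, one_pos, rfl, rfl, fun i hi => ?_⟩
        obtain rfl : i = 0 := by omega
        exact ⟨hb, le_rfl, le_rfl, fun r x y z => e ⟨r, Finset.mem_filter.2 ⟨z, x, y⟩⟩⟩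
  exact key _ S 1 rfl one_pos

theorem amp_near {F : ι → BD K} (hF : ∀ i, Dsc Ω (F i)) (hA : AmpOn Ω A) :
    ∀ᶠ u in 𝓝 (0 : ι → ℝ), AmpOn Ω (A + lc F u) := by
  have c : (0 : ℝ) < Fintype.card ι + 1 := by positivity
  choose ε e k using fun i => (hA.smul (inv_pos.2 c)).opn (hF i)
  have ev : ∀ᶠ u in 𝓝 (0 : ι → ℝ), ∀ i, |u i| ≤ ε i := eventually_all.2 fun i =>
    ((continuous_apply i).abs.continuousAt.eventually_lt continuousAt_const
      (by simpa using e i)).mono fun _ => le_of_lt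
  refine ev.mono fun u hu => ?_
  have q : A + lc F u = ((Fintype.card ι : ℝ) + 1)⁻¹ • A +
      ∑ i, (((Fintype.card ι : ℝ) + 1)⁻¹ • A + u i • F i) := by
    rw [Finset.sum_add_distrib, Finset.sum_const, Finset.card_univ, ← Nat.cast_smul_eq_nsmul ℝ,
      ← add_assoc, smul_smul, ← add_smul, show ((Fintype.card ι : ℝ) + 1)⁻¹ +
        Fintype.card ι * ((Fintype.card ι : ℝ) + 1)⁻¹ = 1 by field_simp; ring, one_smul]
    rfl
  rw [q]
  exact (hA.smul (inv_pos.2 c)).add_smp (Smp.sum _ fun i _ => (k i _ (hu i)).smp)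
    (Dsc.sum hA.smp_left _ fun i _ => (k i _ (hu i)).1)

end cvx

theorem Sp.des (h : Sp Ω U) (hβ : β ∈ U) : Dsc Ω β :=
  let ⟨_, a, b⟩ := h.ex
  Dsc.of_span h.smp (fun β hβ => (a β hβ).2) (b ▸ hβ)

/-- rational points round `D + A` -/
theorem Sp.nb (h : Sp Ω U) (hD : D ∈ U) (hA : A ∈ U) (ha : AmpOn Ω A) :
    ∃ (ι : Type) (_ : Fintype ι) (_ : Nonempty ι) (F : ι → BD K),
      (∀ i, CarQ (F i) ∧ F i ∈ U ∧ AmpOn Ω (F i - D)) ∧
      ∀ β ∈ U, ∃ ε : ℝ, 0 < ε ∧ ∀ c : ℝ, |c| ≤ ε → ∃ a ∈ Op ι, lc F a = D + A + c • β := by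
  classical
  obtain ⟨T, hT, e⟩ := h.ex
  let b : Option T → BD K := fun i => i.elim 0 Subtype.val
  have b1 : ∀ i, CarQ (b i) ∧ b i ∈ U := fun i => by
    cases i with
    | none => exact ⟨CarQ.zero, zero_mem _⟩
    | some i => exact ⟨(hT i i.2).1, e ▸ Submodule.subset_span i.2⟩
  have b2 : ∀ β ∈ U, ∃ a, lc b a = β := fun β hβ => by
    rw [e, ← Subtype.range_coe (s := (T : Set (BD K)))] at hβ
    obtain ⟨a, ha⟩ := (Submodule.mem_span_range_iff_exists_fun ℝ).1 hβ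
    exact ⟨fun i => i.elim 0 a, by simpa [lc, b] using ha⟩
  obtain ⟨x, hx⟩ := b2 _ (add_mem hD hA)
  obtain ⟨η, η0, hη⟩ := Metric.eventually_nhds_iff.1 (amp_near (fun i => h.des (b1 i).2) ha)
  obtain ⟨δ, d0, d1⟩ := exists_rat_btwn (half_pos η0)
  set q : ℝ := (Fintype.card (Option T) : ℝ)
  have q1 : 1 ≤ q := Nat.one_le_cast.2 Fintype.card_pos
  have w0 : 0 < (δ : ℝ) / (2 * q) := by positivity
  choose r r1 r2 using fun i => exists_rat_btwn (sub_lt_self (x i) w0)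
  have w1 : (δ : ℝ) / (2 * q) ≤ δ := div_le_self d0.le (by linarith)
  let σ : Bool → ℚ := fun s => cond s δ (-δ)
  let u : Bool × Option T → Option T → ℚ := fun i => r + Pi.single i.2 (σ i.1)
  refine ⟨Bool × Option T, inferInstance, inferInstance, fun i => lc b fun j => u i j,
    fun i => ⟨?_, ?_, ?_⟩, fun β hβ => ?_⟩
  · exact CarQ.sum _ fun j _ => (b1 j).1.qsmul _
  · exact lc_mem (fun j => (b1 j).2) _
  · have := hη (y := (fun j => (u i j : ℝ)) - x) (by
      rw [dist_zero_right, pi_norm_lt_iff η0]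
      intro j
      have a1 := r1 j
      have a2 := r2 j
      have a3 : |((Pi.single i.2 (σ i.1) : Option T → ℚ) j : ℝ)| ≤ δ := by
        rw [Pi.single_apply]
        split_ifs
        · cases i.1 <;> simp [σ, abs_of_pos d0]
        · simpa using d0.le
      have a4 := abs_le.1 a3
      simp only [u, Pi.sub_apply, Pi.add_apply, Rat.cast_add, Real.norm_eq_abs, abs_lt]
      constructor <;> linarith [a4.1, a4.2])
    rwa [Ge.lc_sub, hx, show A + (lc b (fun j => (u i j : ℝ)) - (D + A)) =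
      lc b (fun j => (u i j : ℝ)) - D by abel] at this
  · obtain ⟨y, rfl⟩ := b2 β hβ
    refine ⟨δ / (2 * q) / (‖y‖ + 1), by positivity, fun c hc => ?_⟩
    have y1 : ∀ j, |c * y j| ≤ δ / (2 * q) := fun j => by
      have a1 : |y j| ≤ ‖y‖ := norm_le_pi_norm y j
      have a2 := (le_div_iff₀ (by positivity)).1 hc
      rw [abs_mul]
      nlinarith [abs_nonneg c, abs_nonneg (y j)]
    refine ⟨fun i => 1 / (2 * q) + (x i.2 + c * y i.2 - r i.2) / (2 * σ i.1), fun i => ?_, ?_⟩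
    · have a1 := r1 i.2
      have a2 := r2 i.2
      have a3 := abs_le.1 (y1 i.2)
      have a4 : 1 / (2 * q) = (δ / (2 * q) + δ / (2 * q)) / (2 * δ) := by field_simp; ring
      obtain ⟨s, i⟩ := i
      change 0 < 1 / (2 * q) + (x i + c * y i - r i) / (2 * σ s)
      rw [a4]
      cases s
      · simp only [σ, cond_false, Rat.cast_neg, mul_neg, div_neg]
        rw [← sub_eq_add_neg, ← sub_div]
        exact div_pos (by linarith [a3.2]) (by positivity)
      · simp only [σ, cond_true]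
        rw [← add_div]
        exact div_pos (by linarith [a3.1]) (by positivity)
    · rw [← hx, ← Ge.lc_smul, ← Ge.lc_add]
      change ∑ i : Bool × Option T, _ • Ge.lcl b _ = Ge.lcl b _
      simp only [← map_smul, ← map_sum]
      refine congrArg _ (funext fun j => ?_)
      have q0 : q ≠ 0 := by positivity
      simp only [Finset.sum_apply, Pi.smul_apply, smul_eq_mul, Fintype.sum_prod_type,
        Fintype.sum_bool, u, σ, cond, Pi.add_apply, Rat.cast_add, Pi.single_apply, ← Finset.sum_add_distrib]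
      rw [Finset.sum_congr rfl (g := fun i => r j / q + if j = i then x i + c * y i - r i else 0)
        fun i _ => by split_ifs <;> simp <;> field_simp <;> ring]
      rw [Finset.sum_add_distrib, Finset.sum_const, Finset.card_univ, Finset.sum_ite_eq,
        if_pos (Finset.mem_univ _), nsmul_eq_mul]
      change q * _ + _ = _
      field_simp
      ring

/-- cells over the base `V (mx s)` -/
theorem zct (h : MA) (hK : FF K (n + 1)) {ι : Type} [Fintype ι] {F : ι → BD K} (hΩ : Smp Ω)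
    (hb : Big Ω) {s : Finset K} (hs : Dsc Ω (mx s))
    (hF : ∀ i, CarQ (F i) ∧ Adw n Ω (F i - (n + 2 : ℝ) • mx s)) : ∃ H N, Zc F H N ∧
      (∀ a, 0 ≤ a → Psef (lc F a) → a ∈ Ec F) ∧ ∀ y ∈ Ec F, y ≠ 0 → Dsc (lc F y - N y) (mx s) := by
  classical
  choose Γ g1 g2 g3 g4 g5 using fun i => (hF i).2.2
  have dF : ∀ i, Dsc Ω (F i) := fun i => by simpa using (hF i).2.1.add (hs.smul (n + 2 : ℝ))
  have ns : Smp ((n + 2 : ℝ) • mx s) := (smp_mx s).smul (by positivity)
  have e0 : ∀ i, F i - Γ i = F i - (n + 2 : ℝ) • mx s - Γ i + (n + 2 : ℝ) • mx s := fun i => by abel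
  obtain ⟨N, C, h1, h2, h3, h4⟩ := h.zar n K hK ι Ω F Γ hΩ hb fun i =>
    ⟨(hF i).1, dF i, g1 i, g2 i, g3 i, e0 i ▸ (g4 i).add ns.nef, e0 i ▸ (g5 i).add_smp ns⟩
  have inj : Function.Injective fun (v : ι → ℕ) i => (v i : ℤ) := fun v w e =>
    funext fun i => Nat.cast_injective (congrFun e i)
  choose T hT' using fun c : Finset (ι → ℕ) => exists_hcone (c.image fun v i => (v i : ℤ))
  have m : ∀ c a, a ∈ hcone (T c) ↔ ∃ w : (ι → ℕ) → ℝ, 0 ≤ w ∧
      a = ∑ v ∈ c, w v • fun i => (v i : ℝ) := fun c a => by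
    rw [← hT']
    constructor
    · rintro ⟨t, a1, rfl⟩
      exact ⟨fun v => t fun i => v i, fun v => a1 _, by
        rw [Finset.sum_image inj.injOn]; rfl⟩
    · rintro ⟨w, a1, rfl⟩
      exact sum_mem_cone _ _ fun v hv =>
        smul_mem_cone (toR_mem_cone (Finset.mem_image_of_mem _ hv)) (a1 v)
  have nn : ∀ c a, a ∈ hcone (T c) → 0 ≤ a := fun c a ha => by
    obtain ⟨w, a1, rfl⟩ := (m c a).1 ha
    exact Finset.sum_nonneg fun v _ => smul_nonneg (a1 v) fun i => Nat.cast_nonneg _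
  have key : ∀ z ∈ Ec F, ∃ c ∈ C, cell (C.biUnion T) z ⊆ hcone (T c) := fun z hz => by
    obtain ⟨c, a1, a2⟩ := (h1 z hz.1).1 hz.2.psef
    exact ⟨c, a1, cell_le_hcone (Finset.subset_biUnion_of_mem T a1) ((m c z).2 a2)⟩
  refine ⟨C.biUnion T, N, ⟨fun a ha => h2 a ha.1 ha.2.psef, fun z hz a ha => ?_, fun z hz => ?_⟩,
    fun a a0 ha => ⟨a0, Ge.zd_eff (h2 a a0 ha)⟩, fun y hy y0 => ?_⟩
  · obtain ⟨c, a1, a2⟩ := key z hz
    exact ⟨nn c a (a2 ha), Ge.zd_eff (h2 a (nn c a (a2 ha))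
      ((h1 a (nn c a (a2 ha))).2 ⟨c, a1, (m c a).1 (a2 ha)⟩))⟩
  · obtain ⟨c, a1, a2⟩ := key z hz
    obtain ⟨L, b1, b2⟩ := exists_lin (C := hcone (T c)) N (Car K) (zero_mem_hcone _)
      (fun a ha b hb => ⟨add_mem_hcone ha hb, by
        obtain ⟨w, c1, rfl⟩ := (m c a).1 ha
        obtain ⟨w', c2, rfl⟩ := (m c b).1 hb
        have := h4 c a1 (w + w') (add_nonneg c1 c2)
        simp only [Pi.add_apply, add_smul, Finset.sum_add_distrib] at this
        rw [this, h4 c a1 w c1, h4 c a1 w' c2]⟩)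
      (fun a ha t ht => ⟨smul_mem_hcone ha ht, by
        obtain ⟨w, c1, rfl⟩ := (m c a).1 ha
        have := h4 c a1 (t • w) (smul_nonneg ht c1)
        simp only [Pi.smul_apply, smul_eq_mul, mul_smul, ← Finset.smul_sum] at this
        rw [this, h4 c a1 w c1]⟩)
      fun a ha => by
        obtain ⟨w, c1, rfl⟩ := (m c a).1 ha
        rw [h4 c a1 w c1]
        exact sum_mem fun v hv => Submodule.smul_mem _ _ (h3 c a1 v hv).car
    exact ⟨L, b1, fun a ha => b2 a (a2 ha)⟩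
  · obtain ⟨c, a1, w, w0, rfl⟩ := (h1 y hy.1).1 hy.2.psef
    have z : ∀ v ∈ c, ZD (lc F fun i => v i) (N fun i => v i) := fun v hv =>
      h2 _ (fun i => Nat.cast_nonneg _) ((h1 _ fun i => Nat.cast_nonneg _).2
        ⟨c, a1, Pi.single v 1, Pi.single_nonneg.2 zero_le_one, by simp [Pi.single_apply, hv]⟩)
    obtain ⟨v, hv, v0⟩ := Finset.exists_ne_zero_of_sum_ne_zero y0
    have w1 : 0 < w v := lt_of_le_of_ne (w0 v) fun e => v0 (by simp [← e])
    obtain ⟨j, hj⟩ : ∃ j, v j ≠ 0 := by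
      by_contra k
      push Not at k
      exact v0 (funext fun i => by simp [k i])
    set σ : ℕ := ∑ i, v i
    have σ0 : (0 : ℝ) < σ := Nat.cast_pos.2 ((Nat.pos_of_ne_zero hj).trans_le
      (Finset.single_le_sum (fun i _ => Nat.zero_le (v i)) (Finset.mem_univ j)))
    have σ1 : ∑ i, (σ : ℝ)⁻¹ * v i = 1 := by
      rw [← Finset.mul_sum, ← Nat.cast_sum, inv_mul_cancel₀ σ0.ne']
    have p : ∀ i, 0 ≤ (σ : ℝ)⁻¹ * v i := fun i => by positivity
    have pj : 0 < (σ : ℝ)⁻¹ * v j := mul_pos (inv_pos.2 σ0) (Nat.cast_pos.2 (Nat.pos_of_ne_zero hj))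
    have dd : ∀ P, dsc (n + 1) (lc Γ fun i => (σ : ℝ)⁻¹ * v i) P =
        ∑ i, (σ : ℝ)⁻¹ * v i * dsc (n + 1) (Γ i) P := fun P => by
      simp only [dsc, lc, Pi.sub_apply, Finset.sum_apply, Pi.smul_apply, smul_eq_mul, mul_sub,
        Finset.sum_sub_distrib, ← Finset.sum_mul, σ1, one_mul]
    have ee : (σ : ℝ)⁻¹ • (lc F fun i => v i) - (lc Γ fun i => (σ : ℝ)⁻¹ * v i) - (n + 2 : ℝ) • mx s =
        ∑ i, ((σ : ℝ)⁻¹ * v i) • (F i - (n + 2 : ℝ) • mx s - Γ i) := by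
      simp only [lc, smul_sub, Finset.sum_sub_distrib, ← Finset.sum_smul, σ1, one_smul,
        Finset.smul_sum, smul_smul (σ : ℝ)⁻¹]
      abel
    have qi : ∀ β : BD K, CarQ β → CarQ ((σ : ℝ)⁻¹ • β) := fun β x => by
      simpa using x.qsmul (σ : ℚ)⁻¹
    have r := h.rel n K hK Ω ((σ : ℝ)⁻¹ • lc F fun i => v i) (lc Γ fun i => (σ : ℝ)⁻¹ * v i) _ s hΩ hb
      (qi _ (CarQ.sum _ fun i _ => by simpa using (hF i).1.qsmul (v i : ℚ)))
      ((Dsc.sum hΩ _ fun i _ => (dF i).smul _).smul _)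
      (sum_mem fun i _ => Submodule.smul_mem _ _ (g1 i)) (fun P => by
        rw [dd]
        calc (-1 : ℝ) = ∑ i, (σ : ℝ)⁻¹ * v i * -1 := by rw [← Finset.sum_mul, σ1, one_mul]
          _ < _ := Finset.sum_lt_sum (fun i _ => mul_le_mul_of_nonneg_left (g2 i P).le (p i))
            ⟨j, Finset.mem_univ j, mul_lt_mul_of_pos_left (g2 j P) pj⟩)
      (fun P hP => by
        rw [dd]
        exact Finset.sum_nonpos fun i _ => mul_nonpos_of_nonneg_of_nonpos (p i) (g3 i P hP)) hs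
      (ee ▸ Nef.sum _ fun i _ => (g4 i).smul (p i)) (by
        rw [ee, ← Finset.add_sum_erase _ _ (Finset.mem_univ j)]
        exact ((g5 j).smul pj).add_nef (Nef.sum _ fun i _ => (g4 i).smul (p i)))
      (Gs.zd_smul (z v hv) (inv_pos.2 σ0)) (qi _ (h3 c a1 v hv))
    rw [← smul_sub] at r
    have r' := (r.smul_left (mul_pos w1 σ0)).add_left
      (Smp.sum (c.erase v) fun u hu => (z u (Finset.mem_of_mem_erase hu)).smp.smul (w0 u))
    rw [smul_smul, mul_assoc, mul_inv_cancel₀ σ0.ne', mul_one,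
      Finset.add_sum_erase c (fun u => w u • ((lc F fun i => u i) - N fun i => u i)) hv] at r'
    rw [h4 c a1 w w0]
    change Dsc (Ge.lcl F _ - _) _
    simpa only [map_sum, map_smul, Ge.lcl_apply, smul_sub, Finset.sum_sub_distrib] using r'

end Vale.Agent.P287D.Mm
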